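import Mathlib
import Vale.Agent.Lib.P249L.Final

open MeasureTheory
open scoped ENNReal

universe u

namespace Vale.Agent.Results.P249.B_linear

/-- For every `1 ≤ p < ∞` and `D > 1` there is a constant `C = C(p, D)` such that every `n`-point
subset `X` of any `L_p(μ)` (with `n ≥ 2`) has a map `f` into `ℓ_p^d` of distortion at most `D`
with `d ≤ C * n`. -/
theorem result (p : ℝ≥0∞) [Fact (1 ≤ p)] (hpt : p ≠ ∞) (D : ℝ) (hD : 1 < D) :
    ∃ C : ℝ, 0 < C ∧ ∀ (Ω : Type u) [MeasurableSpace Ω] (μ : Measure Ω) (n : ℕ), 2 ≤ n →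
      ∀ X : Finset (Lp ℝ p μ), X.card = n →
        ∃ (d : ℕ) (f : X → PiLp p (fun _ : Fin d => ℝ)) (s : ℝ),
          (d : ℝ) ≤ C * n ∧ 0 < s ∧
          ∀ x y : X, s * ‖(x : Lp ℝ p μ) - y‖ ≤ ‖f x - f y‖ ∧
            ‖f x - f y‖ ≤ D * s * ‖(x : Lp ℝ p μ) - y‖ := by
  have hp1' : (1 : ℝ≥0∞) ≤ p := Fact.out
  have hq1 : 1 ≤ p.toReal := by
    have := ENNReal.toReal_mono hpt hp1'
    simpa using this
  refine ⟨Vale.Agent.Lib.P249L.linC p.toReal D, Vale.Agent.Lib.P249L.spC_pos hq1 _, ?_⟩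
  intro Ω _ μ n hn X hX
  exact Vale.Agent.Lib.P249L.linear_embedding hpt hD n hn X hX

end Vale.Agent.Results.P249.B_linear
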