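import Mathlib
import Vale.Agent.Lib.P249Low.Main

open scoped ENNReal

namespace Vale.Agent.Results.P249.C_lower

/-- For `p > 2` and `D ≥ 1` there is `c = c(p, D) > 0` such that for every large `n` some `n`-point
subset `X` of some `ℓ_p^ι` (an `L_p` space over a finite counting measure) has the property: every
map `f` from `X` into `ℓ_p^d` with distortion at most `D` needs
`d ≥ c (log n / log log n) ^ (p / 2)`. -/
theorem result (p : ℝ≥0∞) [Fact (1 ≤ p)] (hq : 2 < p.toReal) (D : ℝ) (hD : 1 ≤ D) :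
    ∃ c : ℝ, 0 < c ∧ ∀ n : ℕ, Real.exp (Real.exp 2) ≤ (n : ℝ) →
      ∃ (ι : Type) (_ : Fintype ι) (X : Finset (PiLp p (fun _ : ι => ℝ))), X.card = n ∧
        ∀ (d : ℕ) (f : X → PiLp p (fun _ : Fin d => ℝ)) (s : ℝ), 0 < s →
          (∀ x y : X, s * ‖(x : PiLp p (fun _ : ι => ℝ)) - y‖ ≤ ‖f x - f y‖ ∧
            ‖f x - f y‖ ≤ D * s * ‖(x : PiLp p (fun _ : ι => ℝ)) - y‖) →
          c * (Real.log n / Real.log (Real.log n)) ^ (p.toReal / 2) ≤ d :=
  Vale.Agent.Lib.P249Low.lower_log hq D hD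

end Vale.Agent.Results.P249.C_lower
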