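import Mathlib
import Vale.Agent.Results.P249.B_linear
import Vale.Agent.Results.P249.C_lower

open MeasureTheory
open scoped ENNReal

universe u

namespace Vale.Agent.Results.P249.A00_master

/-- (1) For every `1 ≤ p < ∞` and `D > 1` there is a constant `C = C(p, D)` such that every `n`-point
subset `X` of any `L_p(μ)` (with `n ≥ 2`) has a map `f` into `ℓ_p^d` of distortion at most `D`
with `d ≤ C * n`. (2) For `p > 2` and `D ≥ 1` there is `c = c(p, D) > 0` such that for every large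
`n` some `n`-point subset `X` of some `ℓ_p^ι` (an `L_p` space over a finite counting measure) has the
property: every map `f` from `X` into `ℓ_p^d` with distortion at most `D` needs
`d ≥ c (log n / log log n) ^ (p / 2)`. -/
theorem result (p : ℝ≥0∞) [Fact (1 ≤ p)] :
    (p ≠ ∞ → ∀ D : ℝ, 1 < D →
      ∃ C : ℝ, 0 < C ∧ ∀ (Ω : Type u) [MeasurableSpace Ω] (μ : Measure Ω) (n : ℕ), 2 ≤ n →
        ∀ X : Finset (Lp ℝ p μ), X.card = n →
          ∃ (d : ℕ) (f : X → PiLp p (fun _ : Fin d => ℝ)) (s : ℝ),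
            (d : ℝ) ≤ C * n ∧ 0 < s ∧
            ∀ x y : X, s * ‖(x : Lp ℝ p μ) - y‖ ≤ ‖f x - f y‖ ∧
              ‖f x - f y‖ ≤ D * s * ‖(x : Lp ℝ p μ) - y‖) ∧
    (2 < p.toReal → ∀ D : ℝ, 1 ≤ D →
      ∃ c : ℝ, 0 < c ∧ ∀ n : ℕ, Real.exp (Real.exp 2) ≤ (n : ℝ) →
        ∃ (ι : Type) (_ : Fintype ι) (X : Finset (PiLp p (fun _ : ι => ℝ))), X.card = n ∧
          ∀ (d : ℕ) (f : X → PiLp p (fun _ : Fin d => ℝ)) (s : ℝ), 0 < s →
            (∀ x y : X, s * ‖(x : PiLp p (fun _ : ι => ℝ)) - y‖ ≤ ‖f x - f y‖ ∧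
              ‖f x - f y‖ ≤ D * s * ‖(x : PiLp p (fun _ : ι => ℝ)) - y‖) →
            c * (Real.log n / Real.log (Real.log n)) ^ (p.toReal / 2) ≤ d) :=
  ⟨fun hpt D hD => Vale.Agent.Results.P249.B_linear.result p hpt D hD,
    fun hq D hD => Vale.Agent.Results.P249.C_lower.result p hq D hD⟩

end Vale.Agent.Results.P249.A00_master
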