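import Mathlib
import Vale.Agent.Lib.P249.Main

open MeasureTheory
open scoped ENNReal

universe u

namespace Vale.Agent.Results.P249.A_main

/-- For every `1 ≤ p < ∞` and `D > 1` there is a constant `C = C(p, D)` such that every `n`-point
subset `X` of any `L_p(μ)` (with `n ≥ 2`) has a map `f` into `ℓ_p^d` of distortion at most `D`
with `d ≤ C * n * log n`. -/
theorem result (p : ℝ≥0∞) [Fact (1 ≤ p)] (hpt : p ≠ ∞) (D : ℝ) (hD : 1 < D) :
    ∃ C : ℝ, 0 < C ∧ ∀ (Ω : Type u) [MeasurableSpace Ω] (μ : Measure Ω) (n : ℕ), 2 ≤ n →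
      ∀ X : Finset (Lp ℝ p μ), X.card = n →
        ∃ (d : ℕ) (f : X → PiLp p (fun _ : Fin d => ℝ)) (s : ℝ),
          (d : ℝ) ≤ C * n * Real.log n ∧ 0 < s ∧
          ∀ x y : X, s * ‖(x : Lp ℝ p μ) - y‖ ≤ ‖f x - f y‖ ∧
            ‖f x - f y‖ ≤ D * s * ‖(x : Lp ℝ p μ) - y‖ := by
  have hD0 : 0 < (D - 1) / (D + 1) := div_pos (by linarith) (by linarith)
  refine ⟨72 / ((D - 1) / (D + 1)) ^ 2 * Vale.Agent.Lib.P249.sobConst p.toReal + 1, ?_, ?_⟩
  · have := Vale.Agent.Lib.P249.sobConst_pos p.toReal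
    positivity
  · intro Ω _ μ n hn X hX
    exact Vale.Agent.Lib.P249.main_embedding hpt hD n hn X hX

end Vale.Agent.Results.P249.A_main
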